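/-
Row 210 (S0432).  Shared definitions of the whole development.
Master plan: `git show origin/helper928:docs/R210_master.md`.
Only definitions (and no theorems) live here; never change a definition without asking helper928.
-/
import Claimed.Prelude.Def_0366

set_option autoImplicit false

open Claims.C0366 Claims.C0366.WeakHessian
open Set Filter MeasureTheory
open scoped ENNReal NNReal Topology

namespace Claimed.Agent.R210.Defs

noncomputable section

variable {X : Type*} [MetricSpace X] [MeasurableSpace X] [BorelSpace X]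

/-- Standing assumptions, after the harmless reduction to `K < 0`. -/
structure Std (m : Measure X) (K N : ℝ) : Prop where
  one_lt_N : 1 < N
  K_neg : K < 0
  full : FullSupport m
  finite : FiniteOnBoundedSets m
  cd : CurvatureDimension m K N
  quad : QuadraticCheegerEnergy m

/-! ### Optimal transport -/

/-- Squared Wasserstein distance (infimum of the frozen quadratic cost over frozen couplings). -/
def W2sq (μ ν : Measure X) : ℝ≥0∞ :=
  ⨅ (q : Measure (X × X)) (_ : IsCoupling q μ ν), QuadraticTransportCost q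

/-- Real valued version of `W2sq`. -/
def W2sqR (μ ν : Measure X) : ℝ := (W2sq μ ν).toReal

/-- `μ` is a probability measure with density `≤ M` w.r.t. `m`, concentrated on `closedBall o R`. -/
structure BddDens (m μ : Measure X) (M : ℝ≥0) (o : X) (R : ℝ) : Prop where
  prob : IsProbabilityMeasure μ
  le : μ ≤ (M : ℝ≥0∞) • m
  conc : μ (Metric.closedBall o R)ᶜ = 0

/-- The measure with (real, a.e. nonnegative) density `ρ` w.r.t. `m`. -/
def dens (m : Measure X) (ρ : X → ℝ) : Measure X := m.withDensity (fun x => ENNReal.ofReal (ρ x))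

/-- The real density of `μ` w.r.t. `m`. -/
def rho (m μ : Measure X) (x : X) : ℝ := (μ.rnDeriv m x).toReal

/-- Kantorovich pair for the cost `d²/2`: bounded Lipschitz `a, b` with `a ⊕ b ≤ d²/2`
and equality a.e. for some optimal coupling. -/
structure KPair (μ ν : Measure X) (a b : X → ℝ) : Prop where
  lip_a : GloballyLipschitz a
  lip_b : GloballyLipschitz b
  bdd_a : BoundedFunction a
  bdd_b : BoundedFunction b
  le : ∀ x y, a x + b y ≤ dist x y ^ 2 / 2
  eq : ∃ q : Measure (X × X), IsOptimalCoupling q μ ν ∧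
    ∀ᵐ p ∂q, a p.1 + b p.2 = dist p.1 p.2 ^ 2 / 2

/-- `ν` is an `s`-intermediate point of `(μ₀, μ₁)`. -/
def IsInter (μ₀ μ₁ ν : Measure X) (s : ℝ) : Prop :=
  W2sq μ₀ ν = ENNReal.ofReal (s ^ 2) * W2sq μ₀ μ₁ ∧
  W2sq ν μ₁ = ENNReal.ofReal ((1 - s) ^ 2) * W2sq μ₀ μ₁

/-- Boltzmann entropy of `μ` w.r.t. `m` (Bochner integral of `ρ log ρ`; only used when integrable
and `μ ≪ m`). -/
def Ent (m μ : Measure X) : ℝ := ∫ x, rho m μ x * Real.log (rho m μ x) ∂m

/-- A geodesic test plan from `μ` to `ν` with compression constant `C`. -/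
structure GeoPlan (m μ ν : Measure X) (π : Measure (Curve X)) (C : ℝ≥0) : Prop where
  prob : IsProbabilityMeasure π
  comp : ∀ t : Time, Measure.map (fun γ : Curve X => γ t) π ≤ (C : ℝ≥0∞) • m
  geo : ∀ᵐ γ ∂π, IsGeodesic γ
  tracks : BoundedTracks π
  opt : IsOptimalCoupling (endpointCoupling π) μ ν

/-! ### Hopf-Lax -/

/-- Hopf-Lax semigroup `Q_s u (y) = inf_z u z + d(z,y)²/(2s)` for `s > 0`, `Q_s u = u` for `s ≤ 0`. -/
def hopfLax (s : ℝ) (u : X → ℝ) (y : X) : ℝ :=
  if 0 < s then ⨅ z : X, (u z + dist z y ^ 2 / (2 * s)) else u y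

/-! ### Function classes -/

/-- Lipschitz with compact support. -/
def LipC (f : X → ℝ) : Prop := GloballyLipschitz f ∧ HasCompactSupport f

/-- Bounded and Lipschitz. -/
def LipB (f : X → ℝ) : Prop := GloballyLipschitz f ∧ BoundedFunction f

/-- Essentially bounded by `B`. -/
def AEBdd (m : Measure X) (f : X → ℝ) (B : ℝ) : Prop := ∀ᵐ x ∂m, |f x| ≤ B

/-- The Dirichlet energy `∫ |Df|²` of a frozen Sobolev function. -/
def energy (m : Measure X) (f : X → ℝ) : ℝ := ∫ x, (weakGradient m f x) ^ 2 ∂m

/-- The bilinear Dirichlet form `∫ Γ(f,g)`. -/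
def form (m : Measure X) (f g : X → ℝ) : ℝ := ∫ x, gamma m f g x ∂m

/-- Compactly supported test functions (the class quantified over in the frozen hypothesis). -/
def TestC (m : Measure X) (g : X → ℝ) : Prop := IsTestFunction m g ∧ HasCompactSupport g

/-- half squared distance from `x`. -/
def wfun (x : X) (z : X) : ℝ := dist z x ^ 2 / 2

end

end Claimed.Agent.R210.Defs
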