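/-
Row 210 (S0432).  Shared definitions, part 2: L² operators (resolvent, heat flow) at the level of functions,
nice densities, the weighted form.   Contracts: `git show origin/helper928:docs/R210_wave2.md`, `docs/R210_partZ.md`.
-/
import Claimed.Agent.R210.Defs
import Claimed.Agent.R210.HS.Defs

set_option autoImplicit false

open Claims.C0366 Claims.C0366.WeakHessian
open Set Filter MeasureTheory
open scoped ENNReal NNReal Topology

namespace Claimed.Agent.R210.Defs2

open Claimed.Agent.R210.Defs Claimed.Agent.R210.HS.Defs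

noncomputable section

open scoped Classical

variable {X : Type*} [MetricSpace X] [MeasurableSpace X] [BorelSpace X]

/-- The frozen Cheeger energy as a functional on `L²(m)`. -/
def ChL2 (m : Measure X) : Lp ℝ 2 m → ℝ≥0∞ := fun u => cheegerEnergy m (u : X → ℝ)

/-- Resolvent `(1 - δ Δ)⁻¹ f` at the level of functions (`0` if `f ∉ L²`). -/
def resF (m : Measure X) (δ : ℝ) (f : X → ℝ) : X → ℝ :=
  if h : MemLp f 2 m then ((prox (ChL2 m) δ (h.toLp f) : Lp ℝ 2 m) : X → ℝ) else 0

/-- Heat flow `e^{tΔ} f` at the level of functions (`0` if `f ∉ L²`). -/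
def heatF (m : Measure X) (t : ℝ) (f : X → ℝ) : X → ℝ :=
  if h : MemLp f 2 m then ((flow (ChL2 m) t (h.toLp f) : Lp ℝ 2 m) : X → ℝ) else 0

/-- Probability density, bounded by `B`, with an exponential `L²` tail bound of exponent `a`
around the base point `o`. -/
structure NiceDens (m : Measure X) (o : X) (a B : ℝ) (ρ : X → ℝ) : Prop where
  meas : AEStronglyMeasurable ρ m
  nonneg : ∀ᵐ x ∂m, 0 ≤ ρ x
  le : ∀ᵐ x ∂m, ρ x ≤ B
  int : Integrable ρ m
  mass : ∫ x, ρ x ∂m = 1
  tail : Integrable (fun x => Real.exp (2 * a * dist x o) * ρ x ^ 2) m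

/-- `a` is an admissible exponent: `e^{-a d(o,·)/4}` is integrable (true for large `a` by CD2). -/
def GoodExp (m : Measure X) (o : X) (a : ℝ) : Prop :=
  0 < a ∧ Integrable (fun x => Real.exp (-(a / 4) * dist x o)) m

/-- Fisher information `8 Ch(√ρ)`. -/
def fisher (m : Measure X) (ρ : X → ℝ) : ℝ≥0∞ := 8 * cheegerEnergy m (fun x => Real.sqrt (ρ x))

/-- Entropy of a density. -/
def entF (m : Measure X) (ρ : X → ℝ) : ℝ := ∫ x, ρ x * Real.log (ρ x) ∂m

/-! ### The weighted structure `m_ε = e^{F/ε} m`, `L = ε Δ + Γ(F,·)` -/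

/-- The weight `e^{F/ε}`. -/
def wt (F : X → ℝ) (ε : ℝ) (x : X) : ℝ := Real.exp (F x / ε)

/-- The weighted measure `e^{F/ε} m`. -/
def mW (m : Measure X) (F : X → ℝ) (ε : ℝ) : Measure X :=
  m.withDensity (fun x => ENNReal.ofReal (wt F ε x))

/-- One half of the weighted Dirichlet form `ε ∫ |Du|² e^{F/ε} dm` on `L²(m_ε)`. -/
def QW (m : Measure X) (F : X → ℝ) (ε : ℝ) : Lp ℝ 2 (mW m F ε) → ℝ≥0∞ := fun u =>
  if Sobolev m (u : X → ℝ) then
    ENNReal.ofReal (ε / 2 * ∫ x, (weakGradient m (u : X → ℝ) x) ^ 2 * wt F ε x ∂m)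
  else ∞

/-- Weighted resolvent `(1 - δ L)⁻¹ f` at the level of functions. -/
def resW (m : Measure X) (F : X → ℝ) (ε δ : ℝ) (f : X → ℝ) : X → ℝ :=
  if h : MemLp f 2 (mW m F ε) then
    ((prox (QW m F ε) δ (h.toLp f) : Lp ℝ 2 (mW m F ε)) : X → ℝ) else 0

/-- The weighted operator `L g = ε Δ g + Γ(F,g)`. -/
def opL (m : Measure X) (F : X → ℝ) (ε : ℝ) (g : X → ℝ) (x : X) : ℝ :=
  ε * laplacian m g x + gamma m F g x

end

end Claimed.Agent.R210.Defs2
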